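import Vale.Agent.P277Z.Bl2.Geo
import Vale.Agent.P277Z.Lo.Jac
import Vale.Agent.P277Z.FI.Dv

/-!
# P277Z: the blow up of a stratum of a divisor with simple normal crossings
-/

set_option linter.all false

open scoped Manifold ContDiff Topology
open Set Filter
open Vale.Agent.P272.K (Cm Chart At)
open Vale.Agent.P285.H281.FD (Bd)
open Vale.Agent.P297 (Place)
open Vale.Agent.P297Z.Pl

noncomputable section

namespace Vale.Agent.P277Z.Bl2

open Lo SubH Hl FI

variable {n N : ℕ} {K : Type} [Field K] [Algebra ℂ K] {M : Mdl n N K}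

theorem coord_of {y : M.F} {c : Chart n M.W} (hc : At c y) {t : Fin n → K}
    (h : ∀ m, ∀ᶠ z in gen {(y : M.W)}, M.val (t m) z = c z m - c y m) : M.Coord y t := by
  have k := fun m => hol_sub (Jc.hol_chart hc m) (hol_const (c y m))
  refine ⟨fun m => ⟨M.mem_O_of (k m) (h m), (M.val_eq_at (k m) (h m)).trans (sub_self _)⟩,
    fun e he => ?_⟩
  rw [Jc.jd_congr he fun m => M.val_eq y.2 (k m) (h m), Jc.jd_sub_const fun m z => c z m]
  exact Jc.tr_ne he hc

theorem exists_gens (hL : Loc M) {I : Type} [Fintype I] {D : I → Div K}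
    (h : ∀ a x, M.Free (D a) x) : ∃ (U : Finset M.F) (f : I × U → K),
      (∀ c, f c ∈ M.H0 (D c.1) ∧ f c ≠ 0) ∧
      ∀ x, ∃ b, ∀ a P, M.On x P → (P.ord (f (a, b)) : ℝ) + D a P = 0 := by
  classical
  haveI : CompactSpace M.F := isCompact_iff_compactSpace.1 M.cpt
  choose f h1 h2 h3 using h
  obtain ⟨U, hU⟩ := CompactSpace.elim_nhds_subcover
    (fun x : M.F => {y | ∀ a P, M.On y P → (P.ord (f a x) : ℝ) + D a P = 0}) fun x =>
    eventually_all.2 fun a => by
      filter_upwards [(eventually_all_finset ((D a).support ∪ (hL.fin (f a x)).toFinset)).2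
        fun P _ => hL.near x P] with y hy P hP
      by_cases hP' : P ∈ (D a).support ∪ (hL.fin (f a x)).toFinset
      · exact h3 a x P (hy P hP' hP)
      · simp only [Finset.mem_union, not_or, Finsupp.notMem_support_iff, Finite.mem_toFinset,
          mem_setOf_eq, not_and, not_not] at hP'
        simp [hP'.1, hP'.2 ⟨y, hP⟩]
  refine ⟨U, fun c => f c.1 c.2, fun c => ⟨h1 _ _, h2 _ _⟩, fun x => ?_⟩
  obtain ⟨b, hb, k⟩ := mem_iUnion₂.1 (hU.ge (mem_univ x))
  exact ⟨⟨b, hb⟩, k⟩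

theorem lc_of (hL : Loc M) {L : Bd M.W} {D : Div K} {s : L.ι → M.W → ℂ} (hr : M.Rep L D s)
    {C : Type} [Fintype C] [Nonempty C] {f : C → K} {σ : C → L.ι → M.W → ℂ} (h0 : ∀ c, f c ≠ 0)
    (hσ : ∀ c, M.Sec L (σ c)) (hm : ∀ c, M.Mul s (f c) (σ c)) {x : M.F} {t : Fin n → K}
    (ht : M.Coord x t) (lab : C → Option (Fin n)) (one : ∀ c c', lab c = none → lab c' = none)
    (ne : ∀ c, (lab c).elim 1 t ≠ 0)
    (le : ∀ c P, M.On x P → (P.ord ((lab c).elim 1 t) : ℝ) ≤ P.ord (f c) + D P)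
    (gn : ∀ c, ∃ c', lab c' = lab c ∧ ∀ P, M.On x P →
      (P.ord (f c') : ℝ) + D P ≤ P.ord ((lab c').elim 1 t)) :
    ∃ E : Lc n (Ob σ) (xi σ), (x : M.W) ∈ E.e.source ∧
      (∀ᶠ w in 𝓝 (x : M.W), ∀ m, E.e w m = M.val (t m) w) ∧ ∀ l, l ∈ E.J ↔ ∃ c, lab c = l := by
  obtain ⟨i, hi⟩ := hr.lb.cover x x.2
  obtain ⟨τ, u, h1, h2, h3, h4, h5⟩ := hr.loc x i hi
  obtain ⟨e, e1, e2, e3⟩ := exists_cht (fun j => (ht.1 j).1) ht.2
  obtain ⟨g, hg⟩ : ∃ g : C → K, ∀ c, g c = f c * τ / (lab c).elim 1 t := ⟨_, fun _ => rfl⟩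
  have og : ∀ c P, M.On x P →
      (P.ord (g c) : ℝ) = P.ord (f c) + D P - P.ord ((lab c).elim 1 t) := fun c P hP => by
    rw [hg, ord_div P (mul_ne_zero (h0 c) h1) (ne c), ord_mul P (h0 c) h1, h2 P hP]
    push_cast
    rfl
  have mg : ∀ c, g c ∈ M.O x := fun c => hL.mem x _ fun P hP => by
    exact_mod_cast (og c P hP ▸ sub_nonneg.2 (le c P hP) : (0 : ℝ) ≤ P.ord (g c))
  have tv : ∀ (l : Option (Fin n)), l.elim 1 t ∈ M.O x ∧
      ∀ w ∈ e.source, tt l (e w) = M.val (l.elim 1 t) w := by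
    rintro (_ | j)
    · exact ⟨one_mem _, fun w _ => (M.val_one w).symm⟩
    · exact ⟨(ht.1 j).1, fun w hw => e3 w hw j⟩
  have ok := ok_mem hσ x.2
  obtain ⟨E, a1, a2, a3⟩ := exists_lc (ξ := xi σ) ok e1 e2 lab (fun c w => u w * M.val (g c) w) one
    (fun c => hol_mul h3 (mg c)) (fun c => (gn c).imp fun c' k => ⟨k.1, mul_ne_zero h4 fun z => by
      obtain ⟨P, hP, a⟩ := hL.van x _ (mg c')
        (hg c' ▸ div_ne_zero (mul_ne_zero (h0 c') h1) (ne c')) z
      have b : (0 : ℝ) < P.ord (g c') := by exact_mod_cast a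
      linarith [og c' P hP, k.2 P hP]⟩) (by
      filter_upwards [ok, (hr.lb.isOpen i).mem_nhds hi, e.open_source.mem_nhds e2,
        eventually_all.2 fun c => hol_eq_of_gen (mem_of_mem_nhds ok c i hi).1
          (hol_mul (hol_mul h3 (mg c)) (tv (lab c)).1) (by
            filter_upwards [hm c x i hi, h5, M.at_pt (M.val_mul (f c) τ) x,
              M.at_pt (M.val_mul (g c) ((lab c).elim 1 t)) x] with w b1 b2 b3 b4
            rw [b1, b2, mul_assoc, ← b4, hg, div_mul_cancel₀ _ (ne c), b3]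
            ring)] with w b1 b2 b3 b4
      exact (xi_eq hr.lb b1 b2).imp fun v k => ⟨k.1, fun c => by
        rw [k.2, b4, (tv _).2 w b3]⟩)
  refine ⟨E, a1, ?_, a3⟩
  filter_upwards [e.open_source.mem_nhds e2] with w hw m
  rw [a2, e3 w hw]

open Classical in
/-- the blow up of the intersection of the prime divisors `r a` -/
theorem blI (hM : M.Proj) (hL : Loc M) (hB : Lbd M) (hP : Pos M) (hS : SURJ) {I : Type}
    [Fintype I] [Nonempty I] (r : I → Place K) (hs : M.Snc (range r)) :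
    ∃ (M' : Mdl n N K) (m : Mod M' M), M'.Proj ∧ ∀ (y : M'.F) (x : M.F) (t : Fin n → K),
      m.g y = x → M.Coord x t → ((∃ a, ¬ M.On x (r a)) → M'.Coord y t) ∧
      ∀ ι : I → Fin n, (∀ a, M.Gn x (r a) (t (ι a))) → ∃ (a : I) (c : Fin n → ℂ), M'.Coord y
        fun k => if k ∈ range ι ∧ k ≠ ι a then t k / t (ι a) - algebraMap ℂ K (c k) else t k := by
  obtain ⟨A, -, hA, hA'⟩ := hP.ex
  choose m₀ hm using fun a => hP.gg A _ hA' hA (IsInt.neg (IsInt.single (r a)))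
  obtain ⟨m, k0, k1⟩ : ∃ m : ℕ, 0 < m ∧ ∀ a, m₀ a ≤ m := ⟨Finset.univ.sup m₀ + 1, Nat.succ_pos _,
    fun a => (Finset.le_sup (Finset.mem_univ a)).trans (Nat.le_succ _)⟩
  obtain ⟨L, s, hr, hp⟩ := hB.pos _ (IsInt.nsmul hA m) (hP.smul A m (by exact_mod_cast k0) hA')
  obtain ⟨U, f, f1, f2⟩ := exists_gens hL fun a => hm a m (k1 a)
  generalize (m : ℝ) • A = D at hr f1 f2
  have sg : ∀ a P, (0 : ℝ) ≤ Finsupp.single (r a) (1 : ℝ) P := fun a =>
    Finsupp.single_nonneg.2 zero_le_one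
  choose σ hσ hm using fun c => hB.sec L D s (f c) hr
    (H0_mono (fun P => by simpa using sg c.1 P) (f1 c).1)
  haveI : Nonempty U := let ⟨x, hx⟩ := M.conn.nonempty; (f2 ⟨x, hx⟩).nonempty
  have f3 : ∀ c x P, M.On x P → Finsupp.single (r c.1) (1 : ℝ) P ≤ P.ord (f c) + D P :=
    fun c x P k => by
      have := (f1 c).1.resolve_left (f1 c).2 P ⟨x, k⟩
      simp only [Finsupp.add_apply, Finsupp.neg_apply] at this
      linarith
  have f4 : ∀ x, ∃ b, ∀ a P, M.On x P →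
      (P.ord (f (a, b)) : ℝ) + D P = Finsupp.single (r a) (1 : ℝ) P := fun x =>
    (f2 x).imp fun b k a P hP => by
      have := k a P hP
      simp only [Finsupp.add_apply, Finsupp.neg_apply] at this
      linarith
  have cA := fun (x : M.F) t (ht : M.Coord x t) (ι : I → Fin n)
      (h : ∀ a, M.Gn x (r a) (t (ι a))) => by
    have o : ∀ a P, M.On x P → (P.ord (t (ι a)) : ℝ) = Finsupp.single (r a) (1 : ℝ) P :=
      fun a P hP => by
        by_cases e : P = r a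
        · simp [e, (h a).ord]
        · simp [hL.other x _ P _ (h a) hP e, Finsupp.single_eq_of_ne e]
    exact lc_of hL hr (fun c => (f1 c).2) hσ hm ht (fun c => some (ι c.1)) (fun _ _ k => by cases k)
      (fun c => gn_ne (h c.1)) (fun c P k => (o c.1 P k).le.trans (f3 c x P k)) fun c =>
      (f4 x).elim fun b k => ⟨(c.1, b), rfl, fun P hP => ((k _ P hP).trans (o _ P hP).symm).le⟩
  have cB := fun (x : M.F) t (ht : M.Coord x t) a (h : ¬ M.On x (r a)) =>
    lc_of hL hr (fun c => (f1 c).2) hσ hm ht (fun c => none) (fun _ _ _ => rfl)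
      (fun c => one_ne_zero) (fun c P k => by simpa using (sg c.1 P).trans (f3 c x P k)) fun c =>
      (f4 x).elim fun b k => ⟨(a, b), rfl, fun P hP => by
        rw [k a P hP, Finsupp.single_eq_of_ne (by rintro rfl; exact h hP)]
        simp⟩
  have hF : M.F ⊆ Ob σ := fun x hx => by
    obtain ⟨t, ht, h⟩ := hs.2 ⟨x, hx⟩
    by_cases k : ∀ a, M.On ⟨x, hx⟩ (r a)
    · choose ι hι using fun a => h _ ⟨a, rfl⟩ (k a)
      exact (cA _ t ht ι hι).elim fun E k => E.sub k.1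
    · obtain ⟨a, k⟩ := not_forall.1 k
      exact (cB _ t ht a k).elim fun E k => E.sub k.1
  have hb := posB hF hp
  have hd := (up hF).dn hS hb fun x hx => triv hr.lb hx
  refine ⟨(up hF).mdl hd, (up hF).mod hd, ⟨_, hb⟩, fun y x t hy ht => ?_⟩
  obtain rfl : x = ⟨y.1.π, y.2⟩ := Subtype.ext hy.symm
  have hv := fun g => gen_iff.1 ((up hF).val g) y y.2
  have key : ∀ E : Lc n (Ob σ) (xi σ), y.1.π ∈ E.e.source →
      (∀ᶠ w in 𝓝 y.1.π, ∀ m, E.e w m = M.val (t m) w) → (∀ l ∈ E.J, l.elim 1 t ≠ 0) →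
      ∃ l ∈ E.J, ∃ c : Fin n → ℂ, ((up hF).mdl hd).Coord y fun k => if some k ∈ E.J ∧ some k ≠ l
        then t k / l.elim 1 t - algebraMap ℂ K (c k) else t k := fun E h1 h2 h0 => by
    obtain ⟨l, hl, c, c1, c2, c3⟩ := E.crd h1
    have h4 := gen_of_nhds
      ((cont_π.continuousAt.eventually h2).and (c.open_source.eventually_mem c2))
    refine ⟨l, hl, c y.1, coord_of (c := c) ⟨c1, c2⟩ fun k => ?_⟩
    split_ifs with h
    · have : ∀ᶠ z in gen {y.1}, ((up hF).mdl hd).val (l.elim 1 t) z = tt l (E.e z.π) := by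
        rcases l with _ | j
        · exact .of_forall fun z => Mdl.val_one _ z
        · filter_upwards [h4, hv (t j)] with z b1 b2 using b2.trans (b1.1 j).symm
      filter_upwards [h4, this, hv (t k), Mdl.at_pt _ (Mdl.val_sub _ (t k / l.elim 1 t) _) y,
        Mdl.at_pt _ (Mdl.val_div _ (t k) (l.elim 1 t)) y, Mdl.at_pt _ (Mdl.val_ne _ (h0 l hl)) y]
        with z b1 b2 b3 b4 b5 b6
      rw [b4, b5, Mdl.val_const]
      congr 1
      rw [div_eq_iff b6, mul_comm, b2]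
      exact b3.trans ((b1.1 k).symm.trans ((c3 z b1.2 k).trans (if_pos h)))
    · have h5 := ((c3 _ c2 k).trans (if_neg h)).symm.trans ((h2.self_of_nhds k).trans (ht.1 k).2)
      filter_upwards [h4, hv (t k)] with z b1 b2
      rw [h5, sub_zero]
      exact b2.trans ((b1.1 k).symm.trans ((c3 z b1.2 k).trans (if_neg h)))
  refine ⟨fun ⟨a, ha⟩ => ?_, fun ι h => ?_⟩
  · obtain ⟨E, a1, a2, a3⟩ := cB _ t ht a ha
    obtain ⟨l, -, c, hc⟩ := key E a1 a2 fun l hl => ((a3 l).1 hl).elim fun _ k => k ▸ one_ne_zero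
    simpa [a3] using hc
  · obtain ⟨E, a1, a2, a3⟩ := cA _ t ht ι h
    obtain ⟨l, hl, c, hc⟩ := key E a1 a2 fun l hl => ((a3 l).1 hl).elim fun c k => k ▸ gn_ne (h c.1)
    obtain ⟨⟨a, b⟩, rfl⟩ := (a3 l).1 hl
    refine ⟨a, c, ?_⟩
    simpa [a3] using hc

/-- **BL2** -/
theorem bl2 {n : ℕ} (hL : LOC n) (hB : LBD n) (hP : POS n) (hS : SURJ) : BL2 n := by
  intro N K _ _ M hM R R' hne hs
  obtain ⟨M', m, h1, h2⟩ := blI hM (hL N K M hM) (hB N K M hM) (hP N K M hM) hS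
    (fun b : Bool => cond b R R') (snc_mono hs (by rintro _ ⟨_ | _, rfl⟩ <;> simp))
  refine ⟨M', m, h1, fun y x t hy ht => ⟨fun h => (h2 y x t hy ht).1
    ((not_and_or.1 h).elim (fun k => ⟨true, k⟩) fun k => ⟨false, k⟩), fun i j hi hj => ?_⟩⟩
  have e : i ≠ j := fun e => hne (gn_unique (hL N K M hM) hi (e ▸ hj))
  obtain ⟨a, c, hc⟩ := (h2 y x t hy ht).2 (fun b => cond b i j) (by rintro (_ | _) <;> assumption)
  cases a
  · refine ⟨c i, .inr (cast (congrArg _ (funext fun k => ?_)) hc)⟩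
    by_cases h : k = i
    · simp [h, e]
    · simp [h, Ne.symm h, eq_comm]
  · refine ⟨c j, .inl (cast (congrArg _ (funext fun k => ?_)) hc)⟩
    by_cases h : k = j
    · simp [h, e.symm]
    · simp [h, Ne.symm h, eq_comm]

end Vale.Agent.P277Z.Bl2
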