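import Vale.Agent.P277Z.Bl2.Ch
import Vale.Agent.P277Z.Ps.Psd
import Vale.Agent.P284Z.L.S6b.Loc

/-!
# P277Z, blow ups: properness, the positive line bundle
-/

set_option linter.all false

open scoped Manifold ContDiff Topology ComplexConjugate ComplexOrder InnerProductSpace
open Set Filter
open Vale.Agent.P272.K
open Vale.Agent.P285.H281.FD (Bd)

noncomputable section

namespace Vale.Agent.P277Z.Bl2

open Lo SubH Hl

theorem quad_levi {n : ℕ} {u : Cm n → ℝ} {z : Cm n} (hu : ContDiffAt ℝ 2 u z) (β : Cm n) :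
    (quad (cHess u z) β).re = P284Z.levi u z β / 4 := by
  have := P284Z.cHess_quad hu (star β)
  rw [star_star] at this
  rw [← Complex.ofReal_re (P284Z.levi u z β / 4), ← this]
  congr 1
  simp only [quad, dotProduct, Matrix.mulVec, Finset.mul_sum]
  exact Finset.sum_congr rfl fun i _ => Finset.sum_congr rfl fun j _ => mul_left_comm _ _ _

theorem pd_sum {n : ℕ} {H : Type} [NormedAddCommGroup H] [InnerProductSpace ℂ H] [CompleteSpace H]
    {T : Cm n → Cm n} {u : Cm n → ℝ} {g : Cm n → H} {z : Cm n} (hT : AnalyticAt ℂ T z)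
    (hu : ContDiffAt ℝ 2 u (T z)) (hp : (cHess u (T z)).PosDef) (hg : AnalyticAt ℂ g z)
    (h0 : g z ≠ 0) (hi : ∀ β (c : ℂ), fderiv ℂ T z β = 0 → fderiv ℂ g z β = c • g z → β = 0) :
    (cHess (fun y => u (T y) + Real.log (‖g y‖ ^ 2)) z).PosDef := by
  have h1 : ContDiffAt ℝ 2 (fun y => u (T y)) z := hu.comp z (P284Y.Ps.an_two hT)
  have h2 := Ps.two (P284Z.L.S6b.sm_log hg h0)
  refine posDef_of_quad (C2.cHess_isHermitian (h1.add h2)) fun β hβ => ?_
  have h3 := quad_nonneg (P284Z.L.S6b.fs_psd hg h0) β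
  have qa : ∀ M N : Matrix (Fin n) (Fin n) ℂ, quad (M + N) β = quad M β + quad N β := fun M N => by
    simp only [quad, Matrix.add_apply, add_mul, Finset.sum_add_distrib]
  rw [C2.cHess_add h1 h2, qa, Complex.add_re, quad_levi h1, P284Y.Ps.levi_hol hu hT,
    ← quad_levi hu]
  by_cases e : fderiv ℂ T z β = 0
  · refine add_pos_of_nonneg_of_pos (quad_nonneg hp.posSemidef _) ?_
    have hp := P284Z.L.S6b.sq_pos' h0
    have h1 : fderiv ℂ g z β ≠ 0 := fun h => hβ (hi β 0 e (by rw [h, zero_smul]))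
    rw [P284Z.L.S6b.quad_log hg h0]
    refine mul_pos (by positivity) (sub_pos.2 (pow_lt_pow_left₀ (lt_of_le_of_ne
      (norm_inner_le_norm _ _) fun h => ?_) (norm_nonneg _) two_ne_zero))
    obtain ⟨r, -, hr⟩ := (norm_inner_eq_norm_iff h0 h1).1 h
    exact hβ (hi β r e hr)
  · refine add_pos_of_pos_of_nonneg ?_ h3
    have := hp.dotProduct_mulVec_pos (star_ne_zero.2 e)
    rw [P284Z.cHess_quad hu, star_star, Complex.zero_lt_real] at this
    rwa [quad_levi hu]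

variable {C : Type} [Fintype C] {n : ℕ} {W : Type} [TopologicalSpace W] [ChartedSpace (Cm n) W]
  {O : Set W} {ξ : W → C → ℂ}

theorem hol_comp {g : W → Cm n} {A : Cm n → ℂ} {x : W} (hg : ∀ m, Hol n (fun w => g w m) x)
    (hA : AnalyticAt ℂ A (g x)) : Hol n (fun w => A (g w)) x := fun e he =>
  AnalyticAt.comp' (f := fun z => g (e.symm z)) (by rwa [e.left_inv he.2])
    (analyticAt_pi_iff.2 fun m => hg m e he)

variable (O ξ) in
/-- the centre -/
def Z : Set W := {w | w ∈ O → ξ w = 0}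

theorem notZ {w : W} : w ∉ Z O ξ ↔ w ∈ O ∧ ξ w ≠ 0 := _root_.not_imp

theorem dense_Z : Dense {y : Y O ξ | y.π ∉ Z O ξ} := fun y =>
  closure_subtype.2 (closure_mono (s := Gr O ξ) (fun q hq => (mem_image _ _ _).2
    ⟨⟨q, hq.1, subset_closure hq⟩, notZ.2 ⟨hq.1, hq.2.1⟩, rfl⟩) y.2.2)

namespace All

variable (h : All n O ξ)
include h

theorem isOpen : IsOpen O := isOpen_iff_mem_nhds.2 fun x hx =>
  (h x hx).elim fun D hD => mem_of_superset (D.e.open_source.mem_nhds hD) D.sub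

theorem ev_ne {w : W} (hw : w ∉ Z O ξ) : ∀ᶠ w in 𝓝 w, w ∉ Z O ξ := by
  obtain ⟨D, hD⟩ := h w (notZ.1 hw).1
  obtain ⟨c, hc⟩ := Function.ne_iff.1 ((Lc.η_ne hD).1 (notZ.1 hw).2)
  filter_upwards [D.e.open_source.mem_nhds hD, hol_ne (Lc.η_hol hD c) hc] with w h1 h2
  exact notZ.2 ⟨D.sub h1, (Lc.η_ne h1).2 (Function.ne_iff.2 ⟨c, h2⟩)⟩

theorem pr_at {w : W} (hw : w ∉ Z O ξ) : ContinuousAt (fun w => pr (ξ w)) w := by
  obtain ⟨D, hD⟩ := h w (notZ.1 hw).1
  refine ((pr_cont ((Lc.η_ne hD).1 (notZ.1 hw).2)).comp (f := fun w c => D.η c w)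
    (continuousAt_pi.2 fun c => hol_cont (Lc.η_hol hD c))).congr ?_
  filter_upwards [D.e.open_source.mem_nhds hD] with w h1 using (Lc.pr_η h1).symm

theorem p_eq {y : Y O ξ} (hy : y.π ∉ Z O ξ) : y.p = pr (ξ y.π) := by
  funext a b
  have h1 := continuousAt_pi.1 (continuousAt_pi.1 (h.pr_at hy) a) b
  have h2 := y.fst h1
  have := eq_of_cl y.2.2 (snd_at _ a b) h2 (Eventually.of_forall fun q k => by rw [k.2.2])
  exact this

theorem hol_π (y : Y O ξ) {a : W → ℂ} (ha : Hol n a y.π) :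
    letI := h.cs; Hol n (fun z : Y O ξ => a z.π) y := fun _ he => he.1.hol y he.2 a ha

theorem hol_rat (y : Y O ξ) (a : C) {b : C} (hb : y.p b b ≠ 0) :
    letI := h.cs; Hol n (fun z : Y O ξ => z.p a b / z.p b b) y :=
  fun _ he => he.1.rat y he.2 a b hb

theorem thin {x : W} (hx : x ∈ O) : Thin n (Z O ξ) x := by
  obtain ⟨D, hD⟩ := h x hx
  obtain ⟨l, hl⟩ := D.ne
  refine ⟨fun w => tt l (D.e w), Lc.tt_hol hD l, fun k => ?_, ?_⟩
  · obtain ⟨z, h1, h2, h3⟩ := ((mem_closure_iff_frequently.1 (tt_dense l (D.e x))).and_eventually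
      (((D.e.tendsto_symm hD).eventually k).and
        (D.e.open_target.mem_nhds (D.e.map_source hD)))).exists
    simp only [D.e.right_inv h3] at h2
    exact h1 h2
  · filter_upwards [D.e.open_source.mem_nhds hD] with w h1 h2
    have := congrFun (not_not.1 (mt (Lc.η_ne h1).2 (not_not.2 (h2 (D.sub h1))))) (D.cc l)
    rw [Lc.η, Lc.sum_cc h1 hl] at this
    exact (mul_eq_zero.1 this).resolve_left (D.dg _ h1 l hl).1

theorem bl : letI := h.cs; Bl n (Y.π : Y O ξ → W) O (Z O ξ) := by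
  letI := h.cs
  refine ⟨cont_π, h.isOpen, isOpen_compl_iff.1 (isOpen_iff_mem_nhds.2 fun w hw => h.ev_ne hw),
    fun y => y.2.1, fun L hL hc => ?_, fun z _ hz => ⟨⟨(z, pr (ξ z)), (notZ.1 hz).1,
      subset_closure ⟨(notZ.1 hz).1, (notZ.1 hz).2, rfl⟩⟩, rfl⟩, dense_Z,
    fun y g hg => h.hol_π y hg, fun y y' h1 h2 => Y.ext h2 ?_, fun y hy => ?_⟩
  · have e : Subtype.val '' ((Y.π : Y O ξ → W) ⁻¹' L) =
        L ×ˢ Metric.closedBall (0 : C → C → ℂ) 1 ∩ closure (Gr O ξ) := by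
      ext q
      constructor
      · rintro ⟨y, hy, rfl⟩
        exact ⟨⟨hy, mem_closedBall_zero_iff.2 (Y.rk y).norm_le⟩, y.2.2⟩
      · exact fun k => ⟨⟨q, hL k.1.1, k.2⟩, k.1.1, rfl⟩
    exact Subtype.isCompact_iff.2
      (e ▸ (hc.prod (isCompact_closedBall _ _)).inter_right isClosed_closure)
  · rw [h.p_eq h1, h.p_eq (h2 ▸ h1), h2]
  · classical
    let σ : W → Y O ξ := fun w => if hw : w ∉ Z O ξ then ⟨(w, pr (ξ w)), (notZ.1 hw).1,
      subset_closure ⟨(notZ.1 hw).1, (notZ.1 hw).2, rfl⟩⟩ else y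
    have e : ∀ᶠ w in 𝓝 y.π, (σ w).1 = (w, pr (ξ w)) :=
      (h.ev_ne hy).mono fun w hw => congrArg Subtype.val (dif_pos hw)
    have e0 : σ y.π = y := Subtype.ext (e.self_of_nhds.trans (Prod.ext rfl (h.p_eq hy).symm))
    have c0 : ContinuousAt σ y.π := Topology.IsInducing.subtypeVal.continuousAt_iff.2
      ((continuousAt_id.prodMk (h.pr_at hy)).congr (e.mono fun _ k => k.symm))
    have t0 : Tendsto σ (𝓝 y.π) (𝓝 y) := by
      have := c0.tendsto
      rwa [e0] at this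
    refine ⟨σ, c0, e0, e.mono fun w k => congrArg Prod.fst k, fun a ha => ?_⟩
    obtain ⟨c, hc, hy'⟩ := h.ex y
    obtain ⟨D, hD⟩ := h y.π y.2.1
    refine (hol_comp (g := fun w => c (σ w)) (A := fun z => a (c.symm z)) (fun m => ?_)
      (by rw [e0]; exact ha c ⟨hc, hy'⟩)).congr ?_
    · obtain ⟨f, a, b, h1, h2, h3⟩ := hc.crd y hy' m
      rw [h.p_eq hy, Lc.pr_η hD, pr_ne ((Lc.η_ne hD).1 (notZ.1 hy).2)] at h2
      refine (hol_mul h1 (hol_div (Lc.η_hol hD a) (Lc.η_hol hD b) h2)).congr ?_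
      filter_upwards [t0.eventually h3, e, D.e.open_source.mem_nhds hD,
        hol_ne (Lc.η_hol hD b) h2] with w k1 k2 k3 k4
      rw [k1, show (σ w).π = w from congrArg Prod.fst k2,
        show (σ w).p = pr (ξ w) from congrArg Prod.snd k2, Lc.pr_η k3,
        pr_div (v := fun c => D.η c w) k4]
    · filter_upwards [t0.eventually (c.open_source.mem_nhds hy')] with w k
      rw [c.left_inv k]

end All

variable (O ξ) in
/-- the tensor product of the pull back of `L` and of `𝒪(1)` -/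
def bd (L : Bd W) : Bd (Y O ξ) where
  ι := L.ι × C
  U i := {y | y.π ∈ L.U i.1 ∧ y.p i.2 i.2 ≠ 0}
  g i j y := L.g i.1 j.1 y.π * (y.p j.2 i.2 / y.p i.2 i.2)

/-- its metric -/
def wt {L : Bd W} (ψ : L.ι → W → ℝ) (i : L.ι × C) (y : Y O ξ) : ℝ :=
  ψ i.1 y.π + Real.log (∑ a, ‖y.p a i.2 / y.p i.2 i.2‖ ^ 2)

theorem Rk.rat {p : C → C → ℂ} (h : Rk p) {b c : C} (hb : p b b ≠ 0) (hc : p c c ≠ 0) (a : C) :
    p a b / p b b = p c b / p b b * (p a c / p c c) := by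
  field_simp
  linear_combination h.one a b c c

theorem wt_chg {L : Bd W} {ψ : L.ι → W → ℝ} {i j : L.ι × C} {y : Y O ξ} (hi : y.p i.2 i.2 ≠ 0)
    (hj : y.p j.2 j.2 ≠ 0) (h0 : L.g i.1 j.1 y.π ≠ 0)
    (h : ψ i.1 y.π = ψ j.1 y.π + Real.log (‖L.g i.1 j.1 y.π‖ ^ 2)) :
    wt ψ i y = wt ψ j y + Real.log (‖(bd O ξ L).g i j y‖ ^ 2) := by
  have h1 := div_ne_zero (y.rk.ne hj hi) hi
  have h2 : 0 < ∑ a, ‖y.p a j.2 / y.p j.2 j.2‖ ^ 2 := Finset.sum_pos' (fun _ _ => by positivity)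
    ⟨j.2, Finset.mem_univ _, by simp [hj]⟩
  have h3 : ∑ a, ‖y.p a i.2 / y.p i.2 i.2‖ ^ 2 =
      ‖y.p j.2 i.2 / y.p i.2 i.2‖ ^ 2 * ∑ a, ‖y.p a j.2 / y.p j.2 j.2‖ ^ 2 := by
    rw [Finset.mul_sum]
    exact Finset.sum_congr rfl fun a _ => by rw [y.rk.rat hi hj a, norm_mul, mul_pow]
  simp only [wt, bd]
  rw [h, h3, norm_mul, mul_pow, Real.log_mul (by positivity) h2.ne',
    Real.log_mul (by positivity) (by positivity)]
  ring

theorem imm {T : Cm n → Cm n} {g : Cm n → EuclideanSpace ℂ C} {z : Cm n} {b₀ : C}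
    (hT : AnalyticAt ℂ T z) (hg : AnalyticAt ℂ g z) (g1 : ∀ᶠ z in 𝓝 z, g z b₀ = 1)
    (H : ∀ m, ∃ (F : Cm n → ℂ) (a b : C), AnalyticAt ℂ F (T z) ∧ g z b ≠ 0 ∧
      ∀ᶠ z in 𝓝 z, z m = F (T z) * (g z a / g z b)) (β : Cm n) (k : ℂ)
    (k1 : fderiv ℂ T z β = 0) (k2 : fderiv ℂ g z β = k • g z) : β = 0 := by
  have d : ∀ (G : Cm n × EuclideanSpace ℂ C → ℂ) (f : Cm n → ℂ) (f' : Cm n →L[ℂ] ℂ),
      DifferentiableAt ℂ G (T z, g z) → HasFDerivAt f f' z → (∀ᶠ z in 𝓝 z, f z = G (T z, g z)) →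
      f' β = fderiv ℂ G (T z, g z) (0, k • g z) := fun G f f' a1 a2 a3 => by
    have := (a1.hasFDerivAt.comp z (hT.differentiableAt.hasFDerivAt.prodMk
      hg.differentiableAt.hasFDerivAt)).congr_of_eventuallyEq a3
    rw [a2.unique this, ← k1, ← k2]
    rfl
  let P : C → (Cm n × EuclideanSpace ℂ C →L[ℂ] ℂ) := fun a =>
    (EuclideanSpace.proj a).comp (ContinuousLinearMap.snd _ _ _)
  have k0 : k = 0 := by
    have := d (P b₀) (fun _ => 1) 0 (P _).differentiableAt (hasFDerivAt_const _ _)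
      (g1.mono fun z k => k.symm)
    rw [ContinuousLinearMap.fderiv] at this
    simpa [P, g1.self_of_nhds] using this.symm
  funext m
  obtain ⟨F, a, b, a1, a2, a3⟩ := H m
  have a4 : DifferentiableAt ℂ (fun q : Cm n × EuclideanSpace ℂ C => F q.1) (T z, g z) :=
    DifferentiableAt.comp (g := F) (f := Prod.fst) (T z, g z) a1.differentiableAt
      differentiableAt_fst
  have := d (fun q => F q.1 * (P a q * (P b q)⁻¹)) (fun z => z m) (ContinuousLinearMap.proj m)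
    (a4.mul ((P a).differentiableAt.mul ((P b).differentiableAt.inv a2))) (hasFDerivAt_apply m _)
    (a3.mono fun z k => k.trans (by rw [div_eq_mul_inv]; rfl))
  rw [k0, zero_smul] at this
  exact this.trans (map_zero _)

variable [IsManifold 𝓘(ℂ, Cm n) ω W]

theorem All.spsh (h : All n O ξ) {L : Bd W} {ψ : L.ι → W → ℝ} {i : L.ι × C} {y : Y O ξ}
    (hi : y.p i.2 i.2 ≠ 0) (hψ : Spsh n (ψ i.1) y.π) : letI := h.cs; Spsh n (wt ψ i) y := by
  letI := h.cs
  intro c hc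
  have he := Lo.at_chartAt (n := n) y.π
  generalize chartAt (Cm n) y.π = e at he
  obtain ⟨h1, h2⟩ := hψ e he
  have t0 := c.tendsto_symm hc.2
  obtain ⟨T, hT'⟩ : ∃ T : Cm n → Cm n, T = fun z => e (c.symm z).π := ⟨_, rfl⟩
  obtain ⟨r, hr⟩ : ∃ r : C → Cm n → ℂ,
    r = fun a z => (c.symm z).p a i.2 / (c.symm z).p i.2 i.2 := ⟨_, rfl⟩
  have hT : AnalyticAt ℂ T (c y) :=
    hT' ▸ analyticAt_pi_iff.2 fun m => hc.1.hol y hc.2 _ (hol_chart he m)
  have hg := Ps.an_vec (f := r) (z := c y) fun a => hr ▸ hc.1.rat y hc.2 a _ hi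
  have T0 : T (c y) = e y.π := by simp only [hT', c.left_inv hc.2]
  have g1 : ∀ᶠ z in 𝓝 (c y), r i.2 z = 1 :=
    (t0.eventually ((cont_p' _ _).continuousAt.eventually_ne hi)).mono fun z k => by
      rw [hr]; exact div_self k
  have g0 : (WithLp.toLp 2 fun a => r a (c y) : EuclideanSpace ℂ C) ≠ 0 := fun k => by
    have := congrArg (fun v : EuclideanSpace ℂ C => v i.2) k
    simp [g1.self_of_nhds] at this
  have hs : ∀ᶠ z in 𝓝 (c y), e.symm (T z) = (c.symm z).π :=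
    (t0.eventually (cont_π.continuousAt.eventually (e.open_source.mem_nhds he.2))).mono
      fun z k => by rw [hT']; exact e.left_inv k
  have ev : (fun z => wt ψ i (c.symm z)) =ᶠ[𝓝 (c y)] fun z => ψ i.1 (e.symm (T z)) +
      Real.log (‖(WithLp.toLp 2 fun a => r a z : EuclideanSpace ℂ C)‖ ^ 2) :=
    hs.mono fun z k => by
      simp only [Ps.sq_vec]
      simp only [wt, k, hr]
  rw [← T0] at h1 h2
  refine ⟨((h1.comp _ (hT.contDiffAt.restrict_scalars ℝ)).add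
    (P284Z.L.S6b.sm_log hg g0)).congr_of_eventuallyEq ev, ?_⟩
  rw [C2.cHess_congr ev]
  refine pd_sum (u := fun z => ψ i.1 (e.symm z)) hT (Ps.two h1) h2 hg g0
    (imm (b₀ := i.2) hT hg g1 fun m => ?_)
  obtain ⟨f, a, b, a1, a2, a3⟩ := hc.1.crd y hc.2 m
  refine ⟨fun z => f (e.symm z), a, b, T0 ▸ a1 e he, ?_, ?_⟩
  · change r b (c y) ≠ 0
    simp only [hr, c.left_inv hc.2]
    exact div_ne_zero (y.rk.ne a2 hi) hi
  filter_upwards [hs, t0.eventually a3, c.open_target.mem_nhds (c.map_source hc.2),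
    t0.eventually ((cont_p' _ _).continuousAt.eventually_ne hi),
    t0.eventually ((cont_p' _ _).continuousAt.eventually_ne a2)] with z b1 b2 b3 b4 b5
  rw [c.right_inv b3] at b2
  rw [b2, b1]
  change _ = _ * (r a z / r b z)
  simp only [hr]
  rw [(c.symm z).rk.rat b4 b5 a, mul_div_cancel_left₀ _ (div_ne_zero ((c.symm z).rk.ne b5 b4) b4)]

end Vale.Agent.P277Z.Bl2
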