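import Vale.Agent.P277Z.Bl2.Pr

/-!
# P277Z, blow ups: the charts, the manifold
-/

set_option linter.all false

open scoped Manifold ContDiff Topology ComplexConjugate
open Set Filter
open Vale.Agent.P272.K (Cm Chart At)

noncomputable section

namespace Vale.Agent.P277Z.Bl2

open Lo SubH

variable {C : Type} [Fintype C] {n : ℕ} {W : Type} [TopologicalSpace W] [ChartedSpace (Cm n) W]
  {O : Set W} {ξ : W → C → ℂ}

namespace Lc

variable (D : Lc n O ξ) (l : Option (Fin n))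

/-- the blow up map in coordinates -/
def sl (z : Cm n) : Cm n := fun m => if some m ∈ D.J ∧ some m ≠ l then tt l z * z m else z m

/-- the affine coordinates of the normal direction -/
def rr (l m : Option (Fin n)) (z : Cm n) : ℂ := if m = l then 1 else tt m z

/-- the vector which spans the line -/
def vv (z : Cm n) (c : C) : ℂ := ∑ m ∈ D.J, D.h c m (D.e.symm (D.sl l z)) * rr l m z

/-- the coordinates -/
def φ (y : Y O ξ) : Cm n := fun m =>
  if some m ∈ D.J ∧ some m ≠ l then D.ρ y (some m) (D.cc l) / D.ρ y l (D.cc l) else D.e y.π m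

variable {D l} {z : Cm n} {y : Y O ξ} {m : Option (Fin n)}

theorem sl_an (z : Cm n) : AnalyticAt ℂ (D.sl l) z :=
  analyticAt_pi_iff.2 fun m => by
    unfold sl
    split_ifs
    · exact (tt_an l z).mul (tt_an (some m) z)
    · exact tt_an (some m) z

theorem sl_cont : Continuous (D.sl l) := continuous_iff_continuousAt.2 fun z => (sl_an z).continuousAt

theorem rr_an (z : Cm n) : AnalyticAt ℂ (rr l m) z := by
  unfold rr
  split_ifs
  · exact analyticAt_const
  · exact tt_an m z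

theorem tt_sl (hl : l ∈ D.J) (hm : m ∈ D.J) (z : Cm n) : tt m (D.sl l z) = tt l z * rr l m z := by
  by_cases e : m = l
  · subst e
    cases m <;> simp [rr, tt, sl]
  · rcases m with _ | j
    · exact absurd (D.one hm l hl).symm e
    · simp [rr, tt, sl, e, hm]

theorem an_comp (hz : D.sl l z ∈ D.e.target) {a : W → ℂ} (ha : Hol n a (D.e.symm (D.sl l z))) :
    AnalyticAt ℂ (fun z => a (D.e.symm (D.sl l z))) z := by
  have := D.cht.inv _ (D.e.map_target hz) a ha
  rw [D.e.right_inv hz] at this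
  exact this.comp' (sl_an z)

theorem vv_an (hz : D.sl l z ∈ D.e.target) (c : C) : AnalyticAt ℂ (fun z => D.vv l z c) z :=
  Finset.analyticAt_fun_sum _ fun m _ =>
    (an_comp hz (D.hol _ (D.e.map_target hz) c m)).mul (rr_an z)

theorem vv_cc (hz : D.sl l z ∈ D.e.target) (hm : m ∈ D.J) :
    D.vv l z (D.cc m) = D.h (D.cc m) m (D.e.symm (D.sl l z)) * rr l m z :=
  sum_cc (D.e.map_target hz) hm _

theorem vv_ne (hl : l ∈ D.J) (hz : D.sl l z ∈ D.e.target) : D.vv l z (D.cc l) ≠ 0 := by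
  rw [vv_cc hz hl, rr, if_pos rfl, mul_one]
  exact (D.dg _ (D.e.map_target hz) l hl).1

theorem inv_cont (hl : l ∈ D.J) (hz : D.sl l z ∈ D.e.target) :
    ContinuousAt (fun z => (D.e.symm (D.sl l z), pr (D.vv l z))) z :=
  ((D.e.continuousAt_symm hz).comp sl_cont.continuousAt).prodMk
    ((pr_cont (Function.ne_iff.2 ⟨_, vv_ne hl hz⟩)).comp
      (continuousAt_pi.2 fun c => (vv_an hz c).continuousAt))

theorem inv_mem (hl : l ∈ D.J) (hz : D.sl l z ∈ D.e.target) :
    (D.e.symm (D.sl l z), pr (D.vv l z)) ∈ closure (Gr O ξ) := by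
  refine mem_closure_of_frequently_of_tendsto ?_ (inv_cont hl hz)
  refine ((mem_closure_iff_frequently.1 (tt_dense l z)).and_eventually
    (sl_cont.continuousAt.eventually (D.e.open_target.mem_nhds hz))).mono fun z ⟨h1, h2⟩ => ?_
  have h3 := D.e.map_target h2
  have e : (fun c => D.η c (D.e.symm (D.sl l z))) = fun c => tt l z * D.vv l z c := by
    funext c
    rw [η, vv, Finset.mul_sum, D.e.right_inv h2]
    exact Finset.sum_congr rfl fun m hm => by rw [tt_sl hl hm]; ring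
  refine ⟨D.sub h3, (η_ne h3).2 ?_, ?_⟩
  · rw [e]
    exact Function.ne_iff.2 ⟨_, mul_ne_zero h1 (vv_ne hl h2)⟩
  · rw [pr_η h3, e, pr_smul h1]

theorem ρ_ne (hl : l ∈ D.J) (hy : y.π ∈ D.e.source) (hp : y.p (D.cc l) (D.cc l) ≠ 0) :
    D.ρ y l (D.cc l) ≠ 0 := div_ne_zero hp (D.dg _ hy l hl).1

theorem tt_φ (y : Y O ξ) : tt l (D.φ l y) = tt l (D.e y.π) := by
  cases l <;> simp [tt, φ]

theorem sl_φ (hl : l ∈ D.J) (hy : y.π ∈ D.e.source) (hp : y.p (D.cc l) (D.cc l) ≠ 0) :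
    D.sl l (D.φ l y) = D.e y.π := by
  funext m
  rw [sl, tt_φ, φ]
  split_ifs with h
  · have := ρ_tt hy hl h.1 (D.cc l)
    rw [mul_div_assoc', div_eq_iff (ρ_ne hl hy hp)]
    simp only [tt, Option.elim_some] at this ⊢
    linear_combination -this
  · rfl

theorem rr_φ (hl : l ∈ D.J) (hm : m ∈ D.J) (hy : y.π ∈ D.e.source)
    (hp : y.p (D.cc l) (D.cc l) ≠ 0) :
    rr l m (D.φ l y) = D.ρ y m (D.cc l) / D.ρ y l (D.cc l) := by
  by_cases e : m = l
  · rw [e, rr, if_pos rfl, div_self (ρ_ne hl hy hp)]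
  · rcases m with _ | j
    · exact absurd (D.one hm l hl).symm e
    · simp [rr, tt, φ, e, hm]

theorem pr_φ (hl : l ∈ D.J) (hy : y.π ∈ D.e.source) (hp : y.p (D.cc l) (D.cc l) ≠ 0) :
    pr (D.vv l (D.φ l y)) = y.p := by
  rw [← y.rk.eq hp, ← pr_smul (inv_ne_zero (ρ_ne hl hy hp)) fun a => y.p a (D.cc l)]
  congr 1
  funext c
  rw [vv, sl_φ hl hy hp, D.e.left_inv hy, p_eq hy c, Finset.mul_sum]
  exact Finset.sum_congr rfl fun m hm => by rw [rr_φ hl hm hy hp]; ring

open Classical in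
/-- the inverse of the chart -/
def inv (hl : l ∈ D.J) (y₀ : Y O ξ) (z : Cm n) : Y O ξ :=
  if hz : D.sl l z ∈ D.e.target then
    ⟨(D.e.symm (D.sl l z), pr (D.vv l z)), D.sub (D.e.map_target hz), inv_mem hl hz⟩ else y₀

theorem inv_val (hl : l ∈ D.J) (y₀ : Y O ξ) (hz : D.sl l z ∈ D.e.target) :
    (inv hl y₀ z).1 = (D.e.symm (D.sl l z), pr (D.vv l z)) :=
  congrArg Subtype.val (dif_pos hz)

theorem inv_π (hl : l ∈ D.J) (y₀ : Y O ξ) (hz : D.sl l z ∈ D.e.target) :
    (inv hl y₀ z).π = D.e.symm (D.sl l z) := congrArg Prod.fst (inv_val hl y₀ hz)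

theorem inv_p (hl : l ∈ D.J) (y₀ : Y O ξ) (hz : D.sl l z ∈ D.e.target) :
    (inv hl y₀ z).p = pr (D.vv l z) := congrArg Prod.snd (inv_val hl y₀ hz)

/-- the chart `l` of the blow up -/
def ch (hl : l ∈ D.J) (y₀ : Y O ξ) : Chart n (Y O ξ) where
  toFun := D.φ l
  invFun := inv hl y₀
  source := {y | y.π ∈ D.e.source ∧ y.p (D.cc l) (D.cc l) ≠ 0}
  target := D.sl l ⁻¹' D.e.target
  map_source' y hy := by
    rw [mem_preimage, sl_φ hl hy.1 hy.2]
    exact D.e.map_source hy.1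
  map_target' z hz := by
    rw [mem_ofPred_eq, inv_π hl y₀ hz, inv_p hl y₀ hz]
    exact ⟨D.e.map_target hz, (pr_ne (Function.ne_iff.2 ⟨_, vv_ne hl hz⟩)).2 (vv_ne hl hz)⟩
  left_inv' y hy := by
    have : D.sl l (D.φ l y) ∈ D.e.target := by
      rw [sl_φ hl hy.1 hy.2]
      exact D.e.map_source hy.1
    refine Y.ext ?_ ((inv_p hl y₀ this).trans (pr_φ hl hy.1 hy.2))
    rw [inv_π hl y₀ this, sl_φ hl hy.1 hy.2, D.e.left_inv hy.1]
  right_inv' z hz := by
    funext m
    simp only [φ, ρ, inv_π hl y₀ hz, inv_p hl y₀ hz]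
    split_ifs with h
    · have h1 := (D.dg _ (D.e.map_target hz) l hl).1
      have h2 := (D.dg _ (D.e.map_target hz) _ h.1).1
      rw [div_div_div_comm, pr_div (vv_ne hl hz), vv_cc hz hl, vv_cc hz h.1, rr, rr, if_neg h.2,
        if_pos rfl]
      simp only [tt, Option.elim_some]
      field_simp
    · rw [D.e.right_inv hz, sl, if_neg h]
  open_source := (D.e.open_source.preimage cont_π).inter (isOpen_ne.preimage (cont_p' _ _))
  open_target := D.e.open_target.preimage sl_cont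
  continuousOn_toFun := fun y hy => ContinuousAt.continuousWithinAt (continuousAt_pi.2 fun m => by
    have k : ∀ m ∈ D.J, ContinuousAt (fun y => D.ρ y m (D.cc l)) y := fun m hm =>
      (cont_p' _ _).continuousAt.div ((hol_cont (D.hol _ hy.1 _ m)).comp cont_π.continuousAt)
        (D.dg _ hy.1 m hm).1
    unfold φ
    split_ifs with h
    · exact (k _ h.1).div (k _ hl) (ρ_ne hl hy.1 hy.2)
    · exact (hol_cont (D.cht.hol _ hy.1 m)).comp cont_π.continuousAt)
  continuousOn_invFun := Topology.IsInducing.subtypeVal.continuousOn_iff.2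
    (ContinuousOn.congr (fun z hz => (inv_cont hl hz).continuousWithinAt) fun z hz =>
      inv_val hl y₀ hz)

theorem ch_symm (hl : l ∈ D.J) (y₀ : Y O ξ) (hy : y ∈ (ch hl y₀).source) :
    ∀ᶠ z in 𝓝 (ch hl y₀ y), ((ch hl y₀).symm z).π = D.e.symm (D.sl l z) ∧
      ((ch hl y₀).symm z).p = pr (D.vv l z) := by
  filter_upwards [(ch hl y₀).open_target.mem_nhds ((ch hl y₀).map_source hy)] with z hz
  exact ⟨inv_π hl y₀ hz, inv_p hl y₀ hz⟩

end Lc

/-- good charts -/
structure Gd (c : Chart n (Y O ξ)) : Prop where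
  hol : ∀ y ∈ c.source, ∀ a, Hol n a y.π → AnalyticAt ℂ (fun z => a (c.symm z).π) (c y)
  rat : ∀ y ∈ c.source, ∀ a b, y.p b b ≠ 0 →
    AnalyticAt ℂ (fun z => (c.symm z).p a b / (c.symm z).p b b) (c y)
  crd : ∀ y ∈ c.source, ∀ m, ∃ f a b, Hol n f y.π ∧ y.p b b ≠ 0 ∧
    ∀ᶠ y' in 𝓝 y, c y' m = f y'.π * (y'.p a b / y'.p b b)

theorem Lc.gd {D : Lc n O ξ} {l} (hl : l ∈ D.J) (y₀ : Y O ξ) : Gd (Lc.ch hl y₀) where
  hol y hy a ha := by
    have hz : D.sl l (Lc.ch hl y₀ y) ∈ D.e.target := (Lc.ch hl y₀).map_source hy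
    have h := Lc.ch_symm hl y₀ hy
    have e := h.self_of_nhds.1
    rw [(Lc.ch hl y₀).left_inv hy] at e
    exact (Lc.an_comp hz (e ▸ ha)).congr (h.mono fun z k => by simp only [k.1])
  rat y hy a b hb := by
    have hz : D.sl l (Lc.ch hl y₀ y) ∈ D.e.target := (Lc.ch hl y₀).map_source hy
    have h := Lc.ch_symm hl y₀ hy
    have e := h.self_of_nhds.2
    rw [(Lc.ch hl y₀).left_inv hy] at e
    rw [e, pr_ne (Function.ne_iff.2 ⟨_, Lc.vv_ne hl hz⟩)] at hb
    refine ((Lc.vv_an hz a).div (Lc.vv_an hz b) hb).congr ?_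
    filter_upwards [h, (Lc.vv_an hz b).continuousAt.eventually_ne hb] with z k1 k2
    simp only [k1.2, pr_div k2, Pi.div_apply]
  crd y hy m := by
    by_cases h : some m ∈ D.J ∧ some m ≠ l
    · refine ⟨fun w => D.h (D.cc l) l w / D.h (D.cc (some m)) (some m) w, D.cc (some m), D.cc l,
        hol_div (D.hol _ hy.1 _ _) (D.hol _ hy.1 _ _) (D.dg _ hy.1 _ h.1).1, hy.2,
        Eventually.of_forall fun y' => ?_⟩
      change D.φ l y' m = _
      rw [Lc.φ, if_pos h, Lc.ρ, Lc.ρ, div_div_div_comm, div_eq_mul_inv, inv_div, mul_comm]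
    · refine ⟨fun w => D.e w m, D.cc l, D.cc l, D.cht.hol _ hy.1 m, hy.2, ?_⟩
      filter_upwards [(cont_p' _ _).continuousAt.eventually_ne hy.2] with y' h1
      change D.φ l y' m = _
      rw [Lc.φ, if_neg h, div_self h1, mul_one]

variable (n O ξ) in
/-- local data exist everywhere -/
def All : Prop := ∀ x ∈ O, ∃ D : Lc n O ξ, x ∈ D.e.source

theorem All.ex (h : All n O ξ) (y : Y O ξ) : ∃ c : Chart n (Y O ξ), Gd c ∧ y ∈ c.source := by
  obtain ⟨D, hD⟩ := h y.π y.2.1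
  obtain ⟨l, hl, hp⟩ := Lc.cover hD
  exact ⟨_, Lc.gd hl y, hD, hp⟩

/-- the atlas -/
@[reducible] def All.cs (h : All n O ξ) : ChartedSpace (Cm n) (Y O ξ) where
  atlas := {c | Gd c}
  chartAt y := (h.ex y).choose
  mem_chart_source y := (h.ex y).choose_spec.2
  chart_mem_atlas y := (h.ex y).choose_spec.1

theorem Gd.trans {c c' : Chart n (Y O ξ)} (h : Gd c) (h' : Gd c') {y} (hy : y ∈ c.source)
    (hy' : y ∈ c'.source) : AnalyticAt ℂ (fun z => c' (c.symm z)) (c y) :=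
  analyticAt_pi_iff.2 fun m => by
    obtain ⟨f, a, b, h1, h2, h3⟩ := h'.crd y hy' m
    exact ((h.hol y hy f h1).mul (h.rat y hy a b h2)).congr
      (((c.tendsto_symm hy).eventually h3).mono fun z k => k.symm)

theorem All.mf (h : All n O ξ) : letI := h.cs; IsManifold 𝓘(ℂ, Cm n) ω (Y O ξ) := by
  letI := h.cs
  refine isManifold_of_contDiffOn _ _ _ fun e e' he he' v hv => ?_
  simp only [mfld_simps] at hv ⊢
  have := Gd.trans he he' (e.map_target hv.1) hv.2
  rw [e.right_inv hv.1] at this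
  exact this.contDiffAt.contDiffWithinAt

end Vale.Agent.P277Z.Bl2
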