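import Vale.Agent.P277Z.Hl.Desc

/-!
# P277Z, blow ups: a modification of a model is a model over the same field
-/

set_option linter.all false

open scoped Manifold ContDiff Topology
open Set Filter
open Vale.Agent.P272.K (Cm Chart At)
open Vale.Agent.P285.H281.FD (Bd)

noncomputable section

namespace Vale.Agent.P277Z.Bl2

open Lo Hl

variable {n N : ℕ} {Y : Type} [TopologicalSpace Y] [T2Space Y] [SecondCountableTopology Y]
  [ChartedSpace (Cm n) Y] [IsManifold 𝓘(ℂ, Cm n) ω Y]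

/-- `π` is a modification near the fibre -/
structure Up (G : Geo n N) (π : Y → G.W) (O Z : Set G.W) : Prop where
  bl : Bl n π O Z
  sub : G.F ⊆ O
  thin : ∀ x ∈ G.F, Thin n Z x

/-- the new germ -/
@[reducible] def Up.geo {G : Geo n N} {π : Y → G.W} {O Z : Set G.W} (h : Up G π O Z) : Geo n N where
  W := Y
  F := π ⁻¹' G.F
  cpt := h.bl.proper _ h.sub G.cpt
  conn := ((top n Y G.W π O Z h.bl).2.2 _ h.sub G.cpt G.conn h.thin).1
  π y := G.π (π y)
  hol y hy i := h.bl.hol y _ (G.hol _ hy i)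
  fib := (h.bl.cont.tendsto_nhdsSet (mapsTo_preimage _ _)).eventually G.fib

variable {K : Type} [Field K] [Algebra ℂ K] {M : Mdl n N K} {π : Y → M.W} {O Z : Set M.W}
  (h : Up M.toGeo π O Z)
include h

theorem Up.mer (f : K) {y : Y} (hy : π y ∈ M.F) : Mer n (fun y => M.val f (π y)) y :=
  let ⟨u, v, h1, h2, h3, h4⟩ := M.mer f _ hy
  ⟨_, _, h.bl.hol y u h1, h.bl.hol y v h2,
    not_zero_of_gen ((Ds.tend h.bl y).eventually (hol_gen_ne h2 h3)), (Ds.tend h.bl y).eventually h4⟩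

theorem Up.val (f : K) :
    ∀ᶠ y in gen (π ⁻¹' M.F), cn n (fun y => M.val f (π y)) y = M.val f (π y) :=
  gen_iff.2 fun _ hy => cn_gen (h.mer f hy)

theorem Up.pull {p : M.W → Prop} (hp : ∀ᶠ x in gen M.F, p x) : ∀ᶠ y in gen (π ⁻¹' M.F), p (π y) :=
  gen_iff.2 fun y hy => (Ds.tend h.bl y).eventually (gen_iff.1 hp _ hy)

/-- meromorphic functions descend -/
def Up.Dn (_ : Up M.toGeo π O Z) : Prop := ∀ a : Y → ℂ, (∀ y ∈ π ⁻¹' M.F, Mer n a y) →
  ∃ a' : M.W → ℂ, (∀ x ∈ M.F, Mer n a' x) ∧ ∀ y, π y ∉ Z → a y = a' (π y)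

/-- the new model -/
@[reducible] def Up.mdl (hs : h.Dn) : Mdl n N K where
  toGeo := h.geo
  val f := cn n fun y => M.val f (π y)
  val_add f g := ((h.val (f + g)).and ((h.val f).and ((h.val g).and
    (h.pull (M.val_add f g))))).mono fun y ⟨a, b, c, d⟩ => by rw [a, b, c, d]
  val_mul f g := ((h.val (f * g)).and ((h.val f).and ((h.val g).and
    (h.pull (M.val_mul f g))))).mono fun y ⟨a, b, c, d⟩ => by rw [a, b, c, d]
  val_const c y := cn_at (hol_const c) (.of_forall fun _ => M.val_const c _)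
  mer f y hy := mer_congr (h.mer f hy) ((cn_gen (h.mer f hy)).mono fun _ => Eq.symm)
  can f := (gen_nhdsSet (h.val f)).mono fun y k a ha e =>
    cn_at ha ((k.and e).mono fun _ k => k.1.symm.trans k.2)
  surj a ha := by
    obtain ⟨a', h1, h2⟩ := hs a ha
    obtain ⟨f, hf⟩ := M.surj a' h1
    refine ⟨f, ?_⟩
    have : ∀ᶠ y in gen (π ⁻¹' M.F), π y ∉ Z := ⟨univ, isOpen_univ, subset_univ _, fun y _ =>
      closure_mono (h.bl.closed.isOpen_compl.preimage h.bl.cont).interior_eq.ge (h.bl.dense y)⟩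
    exact ((h.val f).and ((h.pull hf).and this)).mono fun y ⟨a, b, c⟩ => by rw [a, b, h2 y c]

/-- the modification -/
def Up.mod (hs : h.Dn) : Mod (h.mdl hs) M where
  g := π
  cont _ _ := h.bl.cont.continuousAt
  hol y _ := h.bl.hol y
  img := ((top n Y M.W π O Z h.bl).2.2 _ h.sub M.cpt M.conn h.thin).2
  dom y _ := Ds.tend h.bl y
  base := .of_forall fun _ => rfl
  val := h.val

theorem Up.dn (hS : SURJ) {L : Bd Y} (hL : h.geo.PosB L) (hT : ∀ x ∈ M.F, Triv (n := n) π L x) :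
    h.Dn := hS n N h.geo M.toGeo π O Z L h.bl h.sub rfl h.thin hL hT

end Vale.Agent.P277Z.Bl2
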