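import Vale.Agent.P277Z.Bl2.Bl
import Vale.Agent.P277Z.Bl2.Up

/-!
# P277Z, blow ups: the blow up which is defined by sections of a positive line bundle
-/

set_option linter.all false

open scoped Manifold ContDiff Topology
open Set Filter
open Vale.Agent.P272.K (Cm Chart At)
open Vale.Agent.P285.H281.FD (Bd)

noncomputable section

namespace Vale.Agent.P277Z.Bl2

open Lo SubH Hl

variable {C : Type} [Fintype C] {n N : ℕ}

section

variable {W : Type} [TopologicalSpace W] [ChartedSpace (Cm n) W] {O : Set W} {ξ : W → C → ℂ}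

variable (n O ξ) in
/-- the points with local data -/
def Un : Set W := {w | ∃ D : Lc n O ξ, w ∈ D.e.source}

/-- the same data on the smaller set -/
def Lc.enl (D : Lc n O ξ) : Lc n (Un n O ξ) ξ := { D with sub := fun _ hw => ⟨D, hw⟩ }

theorem all_un : All n (Un n O ξ) ξ := fun _ ⟨D, hD⟩ => ⟨D.enl, hD⟩

theorem Lc.crd (D : Lc n O ξ) {y : Y O ξ} (hy : y.π ∈ D.e.source) : ∃ l ∈ D.J,
    ∃ c : Chart n (Y O ξ), Gd c ∧ y ∈ c.source ∧ ∀ z ∈ c.source, ∀ m,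
      D.e z.π m = if some m ∈ D.J ∧ some m ≠ l then tt l (D.e z.π) * c z m else c z m := by
  obtain ⟨l, hl, hp⟩ := Lc.cover hy
  refine ⟨l, hl, _, Lc.gd hl y, ⟨hy, hp⟩, fun z hz m => ?_⟩
  rw [← Lc.tt_φ z]
  exact (congrFun (Lc.sl_φ hl hz.1 hz.2) m).symm

theorem exists_lc [IsManifold 𝓘(ℂ, Cm n) ω W] [Nonempty C] {x : W} (hO : O ∈ 𝓝 x) {e : Chart n W}
    (he : Cht e) (hx : x ∈ e.source) (lab : C → Option (Fin n)) (γ : C → W → ℂ)
    (one : ∀ c c', lab c = none → lab c' = none) (hol : ∀ c, Hol n (γ c) x)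
    (gn : ∀ c, ∃ c', lab c' = lab c ∧ γ c' x ≠ 0)
    (eq : ∀ᶠ w in 𝓝 x, ∃ u : ℂ, u ≠ 0 ∧ ∀ c, ξ w c = u * (γ c w * tt (lab c) (e w))) :
    ∃ D : Lc n (Un n O ξ) ξ, x ∈ D.e.source ∧ (∀ w, D.e w = e w) ∧
      ∀ l, l ∈ D.J ↔ ∃ c, lab c = l := by
  classical
  have : ∀ l, ∃ c', (∃ c, lab c = l) → lab c' = l ∧ γ c' x ≠ 0 := fun l => by
    by_cases h : ∃ c, lab c = l
    · obtain ⟨c, rfl⟩ := h
      exact (gn c).imp fun _ k _ => k
    · exact ⟨Classical.arbitrary C, fun k => absurd k h⟩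
  choose cc hc using this
  obtain ⟨V, hV, h1, h2⟩ := eventually_nhds_iff.1 (eq.and ((show ∀ᶠ w in 𝓝 x, w ∈ O from hO).and
    ((eventually_all.2 fun c => (hol c).near).and
      (eventually_all.2 fun c => hol_ne (hol _) (hc _ ⟨c, rfl⟩).2))))
  have hJ : ∀ l, l ∈ Finset.univ.image lab ↔ ∃ c, lab c = l := by simp
  refine ⟨Lc.enl ⟨e.restrOpen V h1, Finset.univ.image lab, cc,
    fun c l w => if l = lab c then γ c w else 0, he.restr h1, fun w hw => (hV w hw.2).2.1,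
    Finset.univ_nonempty.image _, fun k l hl => ?_, fun w hw c l => ?_, fun w hw l hl => ?_,
    fun w hw => (hV w hw.2).1.imp fun u k => ⟨k.1, fun c => ?_⟩⟩, ⟨hx, h2⟩, fun _ => rfl, hJ⟩
  · obtain ⟨c, k⟩ := (hJ _).1 k
    obtain ⟨c', rfl⟩ := (hJ _).1 hl
    exact one c c' k
  · split_ifs
    · exact (hV w hw.2).2.2.1 c
    · exact hol_const 0
  · obtain ⟨c, rfl⟩ := (hJ _).1 hl
    simp only [(hc _ ⟨c, rfl⟩).1, if_true]
    exact ⟨(hV w hw.2).2.2.2 c, fun m _ k => if_neg k⟩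
  · simp [k.2]

end

variable {G : Geo n N} {L : Bd G.W} (σ : C → L.ι → G.W → ℂ)

open Classical in
/-- the values of the sections in some trivialisation -/
def xi (w : G.W) (c : C) : ℂ := if h : ∃ i, w ∈ L.U i then σ c h.choose w else 0

/-- the set where the sections are defined -/
def Ok : Set G.W :=
  {w | ∀ c i, w ∈ L.U i → Hol n (σ c i) w ∧ ∀ j, w ∈ L.U j → σ c i w = L.g i j w * σ c j w}

variable {σ}

theorem xi_eq (hL : G.LB L) {w : G.W} (hw : w ∈ Ok σ) {i : L.ι} (hi : w ∈ L.U i) :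
    ∃ u : ℂ, u ≠ 0 ∧ ∀ c, xi σ w c = u * σ c i w := by
  have h : ∃ i, w ∈ L.U i := ⟨i, hi⟩
  exact ⟨_, hL.ne_zero _ i w h.choose_spec hi, fun c => by
    rw [xi, dif_pos h, (hw c _ h.choose_spec).2 i hi]⟩

theorem ok_mem (hσ : ∀ c, G.Sec L (σ c)) {x : G.W} (hx : x ∈ G.F) : Ok σ ∈ 𝓝 x :=
  (eventually_all.2 hσ).filter_mono (nhds_le_nhdsSet hx)

variable (σ) in
/-- the base of the blow up -/
abbrev Ob : Set G.W := Un n (Ok σ) (xi σ)

instance : ChartedSpace (Cm n) (Y (Ob σ) (xi σ)) := all_un.cs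

instance : IsManifold 𝓘(ℂ, Cm n) ω (Y (Ob σ) (xi σ)) := all_un.mf

theorem up (hF : G.F ⊆ Ob σ) : Up G (Y.π : Y (Ob σ) (xi σ) → G.W) (Ob σ) (Z (Ob σ) (xi σ)) :=
  ⟨all_un.bl, hF, fun _ hx => all_un.thin (hF hx)⟩

theorem posB (hF : G.F ⊆ Ob σ) (hL : G.PosB L) : (up hF).geo.PosB (bd (Ob σ) (xi σ) L) := by
  obtain ⟨ψ, h1, h2, h3⟩ := hL
  refine ⟨wt ψ, ⟨fun i => ((h1.isOpen i.1).preimage cont_π).inter
    (isOpen_ne.preimage (cont_p' _ _)), fun y hy => ?_, fun i j y hi hj =>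
    hol_mul (all_un.hol_π y (h1.holo _ _ _ hi.1 hj.1)) (all_un.hol_rat y j.2 hi.2),
    fun i j y hi hj => mul_ne_zero (h1.ne_zero _ _ _ hi.1 hj.1)
      (div_ne_zero (y.rk.ne hj.2 hi.2) hi.2), fun i j k y hi hj hk => ?_⟩,
    fun i y hi => all_un.spsh hi.2 (h2 _ _ hi.1),
    fun i j y hi hj => wt_chg hi.2 hj.2 (h1.ne_zero _ _ _ hi.1 hj.1) (h3 _ _ _ hi.1 hj.1)⟩
  · obtain ⟨i, hi⟩ := h1.cover _ hy
    obtain ⟨b, hb⟩ := y.rk.ex
    exact ⟨(i, b), hi, hb⟩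
  · simp only [bd]
    rw [← h1.cocycle _ _ _ _ hi.1 hj.1 hk.1, y.rk.rat hi.2 hj.2 k.2]
    ring

theorem triv (hL : G.LB L) {x : G.W} (hx : x ∈ G.F) :
    Triv (n := n) (Y.π : Y (Ob σ) (xi σ) → G.W) (bd (Ob σ) (xi σ) L) x := by
  obtain ⟨k, hk⟩ := hL.cover x hx
  have ok : ∀ z : Y (Ob σ) (xi σ), z.π ∈ Ok σ := fun z => z.2.1.elim fun D hD => D.sub hD
  refine ⟨L.U k, (hL.isOpen k).mem_nhds hk, fun a z => L.g k a.1 z.π * σ a.2 k z.π,
    fun a z ha hz => ⟨all_un.hol_π z (a := fun w => L.g k a.1 w * σ a.2 k w)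
      (hol_mul (hL.holo _ _ _ hz ha.1) (ok z _ _ hz).1), fun h => ?_, fun b hb => ?_⟩⟩
  · obtain ⟨y, h1, h2, h3, h4⟩ := ((mem_closure_iff_frequently.1 (dense_Z z)).and_eventually (h.and
      ((cont_π.continuousAt.eventually (((hL.isOpen k).inter (hL.isOpen a.1)).mem_nhds
        ⟨hz, ha.1⟩)).and ((cont_p' _ _).continuousAt.eventually_ne ha.2)))).exists
    obtain ⟨u, -, hu⟩ := xi_eq hL (ok y) h3.1
    rw [all_un.p_eq h1, pr_ne (notZ.1 h1).2, hu] at h4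
    exact mul_ne_zero (hL.ne_zero _ _ _ h3.1 h3.2) (right_ne_zero_of_mul h4) h2
  · have := z.par (s := fun c => σ c k) (hol_cont (ok z b.2 k hz).1) (hol_cont (ok z a.2 k hz).1)
      (((all_un.isOpen.inter (hL.isOpen k)).eventually_mem ⟨z.2.1, hz⟩).mono fun w hw =>
        xi_eq hL (hw.1.elim fun D hD => D.sub hD) hw.2) a.2
    have h0 := ha.2
    simp only [bd]
    rw [← hL.cocycle k a.1 b.1 _ hz ha.1 hb.1]
    field_simp
    linear_combination L.g k a.1 z.π * L.g a.1 b.1 z.π * this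

end Vale.Agent.P277Z.Bl2
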