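import Vale.Agent.P277Z.Hl.Defs
import Vale.Agent.P277Z.Sub.Hyp

/-!
# P277Z, blow ups: projectors of rank one, the closure of the graph
-/

set_option linter.all false

open scoped Manifold ContDiff Topology ComplexConjugate
open Set Filter
open Vale.Agent.P272.K (Cm Chart At)

noncomputable section

namespace Vale.Agent.P277Z.Bl2

open Lo SubH

variable {C : Type} [Fintype C]

/-- the orthogonal projector onto the line of `v` -/
def pr (v : C → ℂ) : C → C → ℂ := fun a b => v a * conj (v b) / ∑ c, v c * conj (v c)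

theorem nsq_ne {v : C → ℂ} (h : v ≠ 0) : ∑ c, v c * conj (v c) ≠ 0 := by
  obtain ⟨a, ha⟩ := Function.ne_iff.1 h
  simp only [Complex.mul_conj]
  exact_mod_cast (Finset.sum_pos' (fun c _ => Complex.normSq_nonneg _)
    ⟨a, Finset.mem_univ _, Complex.normSq_pos.2 ha⟩).ne'

theorem pr_smul {u : ℂ} (hu : u ≠ 0) (v : C → ℂ) : pr (fun c => u * v c) = pr v := by
  funext a b
  have : ∑ c, u * v c * conj (u * v c) = u * conj u * ∑ c, v c * conj (v c) := by
    rw [Finset.mul_sum]
    exact Finset.sum_congr rfl fun c _ => by rw [map_mul]; ring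
  rw [pr, this, pr, map_mul, show u * v a * (conj u * conj (v b)) =
    u * conj u * (v a * conj (v b)) by ring, mul_div_mul_left _ _ (by simpa using hu)]

theorem pr_cont {v : C → ℂ} (h : v ≠ 0) : ContinuousAt pr v :=
  continuousAt_pi.2 fun a => continuousAt_pi.2 fun b =>
    ContinuousAt.div (by fun_prop) (by fun_prop) (nsq_ne h)

theorem pr_ne {v : C → ℂ} (h : v ≠ 0) {b : C} : pr v b b ≠ 0 ↔ v b ≠ 0 := by
  simp [pr, nsq_ne h]

theorem pr_div {v : C → ℂ} {b : C} (h : v b ≠ 0) (a : C) : pr v a b / pr v b b = v a / v b := by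
  have := nsq_ne (Function.ne_iff.2 ⟨b, h⟩)
  have h' : conj (v b) ≠ 0 := by simpa using h
  simp only [pr]
  field_simp

/-- projectors of rank one -/
structure Rk (p : C → C → ℂ) : Prop where
  one : ∀ a b c d, p a b * p c d = p a d * p c b
  her : ∀ a b, p b a = conj (p a b)
  tr : ∑ a, p a a = 1

theorem rk_pr {v : C → ℂ} (h : v ≠ 0) : Rk (pr v) where
  one a b c d := by simp only [pr]; ring
  her a b := by simp [pr, mul_comm]
  tr := by simp only [pr]; rw [← Finset.sum_div, div_self (nsq_ne h)]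

theorem isClosed_rk : IsClosed {p : C → C → ℂ | Rk p} := by
  have : {p : C → C → ℂ | Rk p} = (⋂ a, ⋂ b, ⋂ c, ⋂ d, {p | p a b * p c d = p a d * p c b}) ∩
      ((⋂ a, ⋂ b, {p | p b a = conj (p a b)}) ∩ {p | ∑ a, p a a = 1}) := by
    ext p
    simp only [mem_inter_iff, mem_iInter]
    exact ⟨fun h => ⟨h.1, h.2, h.3⟩, fun h => ⟨h.1, h.2.1, h.2.2⟩⟩
  rw [this]
  exact (isClosed_iInter fun a => isClosed_iInter fun b => isClosed_iInter fun c =>
    isClosed_iInter fun d => isClosed_eq (by fun_prop) (by fun_prop)).inter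
    ((isClosed_iInter fun a => isClosed_iInter fun b =>
      isClosed_eq (by fun_prop) (by fun_prop)).inter (isClosed_eq (by fun_prop) (by fun_prop)))

namespace Rk

variable {p : C → C → ℂ} (h : Rk p)
include h

theorem sum (b : C) : ∑ c, p c b * conj (p c b) = p b b := by
  simp only [← h.her, h.one _ b b, ← Finset.sum_mul, h.tr, one_mul]

theorem eq {b : C} (hb : p b b ≠ 0) : pr (fun a => p a b) = p := by
  funext a c
  rw [pr, h.sum, ← h.her, h.one, mul_div_cancel_right₀ _ hb]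

theorem ex : ∃ b, p b b ≠ 0 := by
  by_contra H
  push Not at H
  simpa [H] using h.tr

theorem ne {a b : C} (ha : p a a ≠ 0) (hb : p b b ≠ 0) : p a b ≠ 0 := fun e =>
  mul_ne_zero ha hb (by rw [← h.one, e, zero_mul])

theorem row {a : C} (ha : p a a = 0) (b : C) : p a b = 0 := by
  have := h.one a b b a
  rwa [ha, zero_mul, h.her a b, Complex.mul_conj, Complex.ofReal_eq_zero,
    Complex.normSq_eq_zero] at this

theorem norm_le : ‖p‖ ≤ 1 := by
  have e : ∑ b, ∑ c, Complex.normSq (p c b) = 1 := by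
    have := h.tr
    simp only [← h.sum, Complex.mul_conj] at this
    exact_mod_cast this
  refine (pi_norm_le_iff_of_nonneg zero_le_one).2 fun a =>
    (pi_norm_le_iff_of_nonneg zero_le_one).2 fun b => ?_
  rw [← sq_le_one_iff₀ (norm_nonneg _), ← Complex.normSq_eq_norm_sq, ← e]
  exact (Finset.single_le_sum (f := fun c => Complex.normSq (p c b))
    (fun c _ => Complex.normSq_nonneg _) (Finset.mem_univ a)).trans (Finset.single_le_sum
    (f := fun b => ∑ c, Complex.normSq (p c b))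
    (fun b _ => Finset.sum_nonneg fun c _ => Complex.normSq_nonneg _) (Finset.mem_univ b))

end Rk

theorem eq_of_cl {X Z : Type} [TopologicalSpace X] [TopologicalSpace Z] [T2Space Z] {s : Set X}
    {q : X} {f g : X → Z} (hq : q ∈ closure s) (hf : ContinuousAt f q) (hg : ContinuousAt g q)
    (h : ∀ᶠ q' in 𝓝 q, q' ∈ s → f q' = g q') : f q = g q :=
  tendsto_nhds_unique_of_frequently_eq hf hg
    (((mem_closure_iff_frequently.1 hq).and_eventually h).mono fun _ k => k.2 k.1)

variable {n : ℕ} {W : Type} [TopologicalSpace W] [ChartedSpace (Cm n) W]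

/-- the graph -/
def Gr (O : Set W) (ξ : W → C → ℂ) : Set (W × (C → C → ℂ)) :=
  {q | q.1 ∈ O ∧ ξ q.1 ≠ 0 ∧ q.2 = pr (ξ q.1)}

/-- the closure of the graph -/
def Y (O : Set W) (ξ : W → C → ℂ) : Type := {q : W × (C → C → ℂ) // q.1 ∈ O ∧ q ∈ closure (Gr O ξ)}

variable {O : Set W} {ξ : W → C → ℂ}

instance : TopologicalSpace (Y O ξ) := instTopologicalSpaceSubtype

instance [T2Space W] : T2Space (Y O ξ) := inferInstanceAs (T2Space (Subtype _))

instance [SecondCountableTopology W] : SecondCountableTopology (Y O ξ) :=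
  TopologicalSpace.Subtype.secondCountableTopology _

/-- the projection -/
def Y.π (y : Y O ξ) : W := y.1.1

/-- the projector -/
def Y.p (y : Y O ξ) : C → C → ℂ := y.1.2

theorem cont_π : Continuous (Y.π : Y O ξ → W) := continuous_subtype_val.fst

theorem cont_p : Continuous (Y.p : Y O ξ → C → C → ℂ) := continuous_subtype_val.snd

theorem cont_p' (a b : C) : Continuous fun y : Y O ξ => y.p a b :=
  (continuous_apply b).comp ((continuous_apply a).comp cont_p)

theorem Y.rk (y : Y O ξ) : Rk y.p :=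
  closure_minimal (t := Prod.snd ⁻¹' {p | Rk p}) (fun q hq => by
    rw [mem_preimage, hq.2.2]; exact rk_pr hq.2.1) (isClosed_rk.preimage continuous_snd) y.2.2

theorem Y.ext {y y' : Y O ξ} (h : y.π = y'.π) (h' : y.p = y'.p) : y = y' :=
  Subtype.ext (Prod.ext h h')

theorem Y.fst (y : Y O ξ) {s : W → ℂ} (h : ContinuousAt s y.π) :
    ContinuousAt (fun q : W × (C → C → ℂ) => s q.1) y.1 :=
  ContinuousAt.comp (f := Prod.fst) (x := y.1) h continuousAt_fst

theorem snd_at (q : W × (C → C → ℂ)) (a b : C) :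
    ContinuousAt (fun q : W × (C → C → ℂ) => q.2 a b) q := by fun_prop

/-- the projector is parallel to every continuous local representative -/
theorem Y.par (y : Y O ξ) {s : C → W → ℂ} {a b : C} (ha : ContinuousAt (s a) y.π)
    (hb : ContinuousAt (s b) y.π) (h : ∀ᶠ w in 𝓝 y.π, ∃ u : ℂ, u ≠ 0 ∧ ∀ c, ξ w c = u * s c w)
    (d : C) : y.p a d * s b y.π = y.p b d * s a y.π := by
  refine eq_of_cl (f := fun q => q.2 a d * s b q.1) (g := fun q => q.2 b d * s a q.1) y.2.2
    ((snd_at _ a d).mul (y.fst hb)) ((snd_at _ b d).mul (y.fst ha)) ?_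
  filter_upwards [continuousAt_fst.eventually h] with q ⟨u, hu, e⟩ hq
  rw [hq.2.2, funext e, pr_smul hu]
  simp only [pr]
  ring

/-- the coordinate `l`, or `1` -/
def tt (l : Option (Fin n)) (z : Cm n) : ℂ := l.elim 1 z

theorem tt_an (l : Option (Fin n)) (z : Cm n) : AnalyticAt ℂ (tt l) z := by
  cases l
  · exact analyticAt_const
  · exact (ContinuousLinearMap.proj (R := ℂ) (φ := fun _ : Fin n => ℂ) _).analyticAt z

theorem tt_dense (l : Option (Fin n)) : Dense {z : Cm n | tt l z ≠ 0} := by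
  rcases l with _ | j
  · simp [tt]
  · exact (dense_compl_singleton (0 : ℂ)).preimage (isOpenMap_eval j)

variable (n O ξ) in
/-- Local data: in the chart `e` the entries of `ξ` generate the ideal of the `tt l`, `l ∈ J`. -/
structure Lc where
  /-- the chart -/
  e : Chart n W
  /-- the coordinates of the centre -/
  J : Finset (Option (Fin n))
  /-- the entries which are associated to the coordinates -/
  cc : Option (Fin n) → C
  /-- the coefficients -/
  h : C → Option (Fin n) → W → ℂ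
  cht : Cht e
  sub : e.source ⊆ O
  ne : J.Nonempty
  one : none ∈ J → ∀ l ∈ J, l = none
  hol : ∀ w ∈ e.source, ∀ c l, Hol n (h c l) w
  dg : ∀ w ∈ e.source, ∀ l ∈ J, h (cc l) l w ≠ 0 ∧ ∀ m ∈ J, m ≠ l → h (cc l) m w = 0
  eq : ∀ w ∈ e.source, ∃ u : ℂ, u ≠ 0 ∧ ∀ c, ξ w c = u * ∑ l ∈ J, h c l w * tt l (e w)

namespace Lc

variable (D : Lc n O ξ)

/-- the holomorphic representative -/
def η (c : C) (w : W) : ℂ := ∑ l ∈ D.J, D.h c l w * tt l (D.e w)

variable {D} {w : W} {l m : Option (Fin n)}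

theorem tt_hol (hw : w ∈ D.e.source) (l) : Hol n (fun w => tt l (D.e w)) w := by
  cases l
  · exact hol_const 1
  · exact D.cht.hol w hw _

theorem η_hol (hw : w ∈ D.e.source) (c : C) : Hol n (D.η c) w :=
  hol_sum _ fun l _ => hol_mul (D.hol w hw c l) (tt_hol hw l)

theorem sum_cc (hw : w ∈ D.e.source) (hl : l ∈ D.J) (r : Option (Fin n) → ℂ) :
    ∑ m ∈ D.J, D.h (D.cc l) m w * r m = D.h (D.cc l) l w * r l :=
  Finset.sum_eq_single_of_mem l hl fun m hm e => by rw [(D.dg w hw l hl).2 m hm e, zero_mul]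

theorem ev (hw : w ∈ D.e.source) : ∀ᶠ w in 𝓝 w, ∃ u : ℂ, u ≠ 0 ∧ ∀ c, ξ w c = u * D.η c w :=
  mem_of_superset (D.e.open_source.mem_nhds hw) D.eq

theorem η_ne (hw : w ∈ D.e.source) : ξ w ≠ 0 ↔ (fun c => D.η c w) ≠ 0 := by
  obtain ⟨u, hu, e⟩ := D.eq w hw
  simp only [Function.ne_iff, e, Pi.zero_apply, mul_ne_zero_iff, hu, η]
  simp [hu]

theorem pr_η (hw : w ∈ D.e.source) : pr (ξ w) = pr fun c => D.η c w := by
  obtain ⟨u, hu, e⟩ := D.eq w hw
  rw [funext e, pr_smul hu]
  rfl

variable (D) in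
/-- the homogeneous coordinates of the direction normal to the centre -/
def ρ (y : Y O ξ) (l : Option (Fin n)) (d : C) : ℂ := y.p (D.cc l) d / D.h (D.cc l) l y.π

variable {y : Y O ξ}

theorem p_eq (hy : y.π ∈ D.e.source) (c d : C) :
    y.p c d = ∑ l ∈ D.J, D.h c l y.π * D.ρ y l d := by
  refine eq_of_cl (f := fun q => q.2 c d)
    (g := fun q => ∑ l ∈ D.J, D.h c l q.1 * (q.2 (D.cc l) d / D.h (D.cc l) l q.1)) y.2.2
    (snd_at _ c d) (tendsto_finset_sum (f := fun l (q : W × (C → C → ℂ)) =>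
      D.h c l q.1 * (q.2 (D.cc l) d / D.h (D.cc l) l q.1)) _ fun l hl =>
      (y.fst (hol_cont (D.hol _ hy c l))).mul ((snd_at _ _ d).div
        (y.fst (hol_cont (D.hol _ hy _ l))) (D.dg _ hy l hl).1)) ?_
  filter_upwards [continuousAt_fst.eventually (D.e.open_source.mem_nhds hy)] with q h1 hq
  rw [hq.2.2, pr_η h1]
  simp only [pr]
  conv_lhs => rw [η, Finset.sum_mul, Finset.sum_div]
  refine Finset.sum_congr rfl fun l hl => ?_
  have := (D.dg _ h1 l hl).1
  rw [show D.η (D.cc l) q.1 = _ from sum_cc h1 hl fun l => tt l (D.e q.1)]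
  field_simp

theorem ρ_tt (hy : y.π ∈ D.e.source) (hl : l ∈ D.J) (hm : m ∈ D.J) (d : C) :
    D.ρ y l d * tt m (D.e y.π) = D.ρ y m d * tt l (D.e y.π) := by
  have := y.par (hol_cont (η_hol hy (D.cc l))) (hol_cont (η_hol hy (D.cc m))) (ev hy) d
  have h1 := (D.dg _ hy l hl).1
  have h2 := (D.dg _ hy m hm).1
  rw [η, η, sum_cc hy hl, sum_cc hy hm] at this
  simp only [ρ]
  field_simp
  linear_combination this

theorem cover (hy : y.π ∈ D.e.source) : ∃ l ∈ D.J, y.p (D.cc l) (D.cc l) ≠ 0 := by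
  by_contra H
  push Not at H
  obtain ⟨b, hb⟩ := y.rk.ex
  refine hb ((p_eq hy b b).trans (Finset.sum_eq_zero fun l hl => ?_))
  rw [ρ, y.rk.row (H l hl), zero_div, mul_zero]

end Lc

end Vale.Agent.P277Z.Bl2
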